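import Mathlib

namespace Vale.Agent.Lib.P355

open Complex

/-- the primitive sixth root of unity `1/2 + (√3/2) i` -/
noncomputable def om : ℂ := (1 / 2 : ℂ) + ((Real.sqrt 3 / 2 : ℝ) : ℂ) * I

lemma om_sq : om ^ 2 = om - 1 := by
  have h3 : ((Real.sqrt 3 : ℝ) : ℂ) ^ 2 = 3 := by
    rw [← Complex.ofReal_pow, Real.sq_sqrt (by norm_num)]; norm_num
  unfold om
  push_cast
  ring_nf
  rw [h3]
  simp only [Complex.I_sq]
  ring

lemma fourth_root (t : ℂ) (h : t ^ 4 = 1) : ∃ m n : ℤ, t = (m : ℂ) + (n : ℂ) * I := by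
  have hf : (t - 1) * (t + 1) * (t - I) * (t + I) = 0 := by
    have : (t - 1) * (t + 1) * (t - I) * (t + I) = t ^ 4 - 1 + (t ^ 2 - 1) * (-(I ^ 2) - 1) := by
      ring
    rw [this, h, Complex.I_sq]; ring
  rcases mul_eq_zero.mp hf with h1 | h1
  · rcases mul_eq_zero.mp h1 with h2 | h2
    · rcases mul_eq_zero.mp h2 with h3 | h3
      · exact ⟨1, 0, by rw [sub_eq_zero.mp h3]; simp⟩
      · exact ⟨-1, 0, by rw [eq_neg_of_add_eq_zero_left h3]; simp⟩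
    · exact ⟨0, 1, by rw [sub_eq_zero.mp h2]; simp⟩
  · exact ⟨0, -1, by rw [eq_neg_of_add_eq_zero_left h1]; simp⟩

lemma sixth_root (t : ℂ) (h : t ^ 6 = 1) : ∃ m n : ℤ, t = (m : ℂ) + (n : ℂ) * om := by
  have hom := om_sq
  have hf : (t - 1) * (t + 1) * (t - om) * (t - (1 - om)) * (t + om) * (t - (om - 1)) = 0 := by
    have e1 : (t - om) * (t - (1 - om)) = t ^ 2 - t + 1 := by
      have : (t - om) * (t - (1 - om)) = t ^ 2 - t + (om - om ^ 2) := by ring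
      rw [this, hom]; ring
    have e2 : (t + om) * (t - (om - 1)) = t ^ 2 + t + 1 := by
      have : (t + om) * (t - (om - 1)) = t ^ 2 + t + (om - om ^ 2) := by ring
      rw [this, hom]; ring
    have : (t - 1) * (t + 1) * (t - om) * (t - (1 - om)) * (t + om) * (t - (om - 1))
        = (t - 1) * (t + 1) * ((t - om) * (t - (1 - om))) * ((t + om) * (t - (om - 1))) := by ring
    rw [this, e1, e2]
    have : (t - 1) * (t + 1) * (t ^ 2 - t + 1) * (t ^ 2 + t + 1) = t ^ 6 - 1 := by ring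
    rw [this, h]; ring
  rcases mul_eq_zero.mp hf with h1 | h1
  · rcases mul_eq_zero.mp h1 with h2 | h2
    · rcases mul_eq_zero.mp h2 with h3 | h3
      · rcases mul_eq_zero.mp h3 with h4 | h4
        · rcases mul_eq_zero.mp h4 with h5 | h5
          · exact ⟨1, 0, by rw [sub_eq_zero.mp h5]; simp⟩
          · exact ⟨-1, 0, by rw [eq_neg_of_add_eq_zero_left h5]; simp⟩
        · exact ⟨0, 1, by rw [sub_eq_zero.mp h4]; simp⟩
      · exact ⟨1, -1, by rw [sub_eq_zero.mp h3]; push_cast; ring⟩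
    · exact ⟨0, -1, by rw [eq_neg_of_add_eq_zero_left h2]; simp⟩
  · exact ⟨-1, 1, by rw [sub_eq_zero.mp h1]; push_cast; ring⟩

lemma sum_gauss {ι : Type*} (s : Finset ι) (f : ι → ℂ)
    (h : ∀ j ∈ s, ∃ m n : ℤ, f j = (m : ℂ) + (n : ℂ) * I) :
    ∃ m n : ℤ, ∑ j ∈ s, f j = (m : ℂ) + (n : ℂ) * I := by
  classical
  induction s using Finset.induction_on with
  | empty => exact ⟨0, 0, by simp⟩
  | insert a s ha ih =>
    obtain ⟨m1, n1, h1⟩ := h a (Finset.mem_insert_self a s)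
    obtain ⟨m2, n2, h2⟩ := ih (fun j hj => h j (Finset.mem_insert_of_mem hj))
    refine ⟨m1 + m2, n1 + n2, ?_⟩
    rw [Finset.sum_insert ha, h1, h2]; push_cast; ring

lemma sum_eis {ι : Type*} (s : Finset ι) (f : ι → ℂ)
    (h : ∀ j ∈ s, ∃ m n : ℤ, f j = (m : ℂ) + (n : ℂ) * om) :
    ∃ m n : ℤ, ∑ j ∈ s, f j = (m : ℂ) + (n : ℂ) * om := by
  classical
  induction s using Finset.induction_on with
  | empty => exact ⟨0, 0, by simp⟩
  | insert a s ha ih =>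
    obtain ⟨m1, n1, h1⟩ := h a (Finset.mem_insert_self a s)
    obtain ⟨m2, n2, h2⟩ := ih (fun j hj => h j (Finset.mem_insert_of_mem hj))
    refine ⟨m1 + m2, n1 + n2, ?_⟩
    rw [Finset.sum_insert ha, h1, h2]; push_cast; ring

lemma normSq_gauss (m n : ℤ) : Complex.normSq ((m : ℂ) + (n : ℂ) * I) = (m : ℝ) ^ 2 + (n : ℝ) ^ 2 := by
  have : ((m : ℂ) + (n : ℂ) * I) = (((m : ℝ) : ℂ) + ((n : ℝ) : ℂ) * I) := by push_cast; ring
  rw [this, Complex.normSq_add_mul_I]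

lemma normSq_eis (m n : ℤ) :
    Complex.normSq ((m : ℂ) + (n : ℂ) * om) = (m : ℝ) ^ 2 + (m : ℝ) * n + (n : ℝ) ^ 2 := by
  have : ((m : ℂ) + (n : ℂ) * om)
      = ((((m : ℝ) + n / 2 : ℝ) : ℂ) + (((n : ℝ) * (Real.sqrt 3 / 2) : ℝ) : ℂ) * I) := by
    unfold om; push_cast; ring
  rw [this, Complex.normSq_add_mul_I]
  have h3 : (Real.sqrt 3) ^ 2 = 3 := Real.sq_sqrt (by norm_num)
  nlinarith [h3]

lemma no_gauss_six (m n : ℤ) : (m : ℝ) ^ 2 + (n : ℝ) ^ 2 ≠ 6 := by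
  intro h
  have h' : m ^ 2 + n ^ 2 = 6 := by exact_mod_cast h
  have hm : -2 ≤ m ∧ m ≤ 2 := by constructor <;> nlinarith [sq_nonneg n]
  have hn : -2 ≤ n ∧ n ≤ 2 := by constructor <;> nlinarith [sq_nonneg m]
  obtain ⟨hm1, hm2⟩ := hm
  obtain ⟨hn1, hn2⟩ := hn
  interval_cases m <;> interval_cases n <;> omega

lemma no_eis_six (m n : ℤ) : (m : ℝ) ^ 2 + (m : ℝ) * n + (n : ℝ) ^ 2 ≠ 6 := by
  intro h
  have h' : m ^ 2 + m * n + n ^ 2 = 6 := by exact_mod_cast h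
  have hn : -2 ≤ n ∧ n ≤ 2 := by constructor <;> nlinarith [sq_nonneg (2 * m + n)]
  have hm : -2 ≤ m ∧ m ≤ 2 := by constructor <;> nlinarith [sq_nonneg (2 * n + m)]
  obtain ⟨hm1, hm2⟩ := hm
  obtain ⟨hn1, hn2⟩ := hn
  interval_cases m <;> interval_cases n <;> omega

/-- For two vectors of `ℂ^d`, `d = 6`, rescaled by `√6`: the inner product times `6`. -/
lemma six_inner (b c : EuclideanSpace ℂ (Fin 6)) :
    (6 : ℂ) * inner ℂ b c
      = ∑ j, (starRingEnd ℂ) ((Real.sqrt 6 : ℂ) * b j) * ((Real.sqrt 6 : ℂ) * c j) := by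
  have h6 : ((Real.sqrt 6 : ℝ) : ℂ) * ((Real.sqrt 6 : ℝ) : ℂ) = 6 := by
    rw [← Complex.ofReal_mul, Real.mul_self_sqrt (by norm_num)]; norm_num
  rw [PiLp.inner_apply, Finset.mul_sum]
  refine Finset.sum_congr rfl fun j _ => ?_
  rw [RCLike.inner_apply, map_mul, Complex.conj_ofReal]
  calc (6 : ℂ) * (c j * (starRingEnd ℂ) (b j))
      = (((Real.sqrt 6 : ℝ) : ℂ) * ((Real.sqrt 6 : ℝ) : ℂ)) * (c j * (starRingEnd ℂ) (b j)) := by
        rw [h6]
    _ = _ := by ring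

theorem not_unbiased_four (b c : EuclideanSpace ℂ (Fin 6))
    (hb : ∀ j, ((Real.sqrt 6 : ℂ) * b j) ^ 4 = 1) (hc : ∀ j, ((Real.sqrt 6 : ℂ) * c j) ^ 4 = 1) :
    ‖inner ℂ b c‖ ^ 2 ≠ 1 / 6 := by
  intro h
  obtain ⟨m, n, hmn⟩ := sum_gauss Finset.univ
    (fun j => (starRingEnd ℂ) ((Real.sqrt 6 : ℂ) * b j) * ((Real.sqrt 6 : ℂ) * c j))
    (fun j _ => fourth_root _ (by rw [mul_pow, ← map_pow, hb j, hc j]; simp))
  rw [← six_inner] at hmn
  have h2 : Complex.normSq ((6 : ℂ) * inner ℂ b c) = 6 := by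
    rw [Complex.normSq_mul, Complex.normSq_eq_norm_sq (inner ℂ b c), h]
    simp [Complex.normSq]
  rw [hmn, normSq_gauss] at h2
  exact no_gauss_six m n h2

theorem not_unbiased_six (b c : EuclideanSpace ℂ (Fin 6))
    (hb : ∀ j, ((Real.sqrt 6 : ℂ) * b j) ^ 6 = 1) (hc : ∀ j, ((Real.sqrt 6 : ℂ) * c j) ^ 6 = 1) :
    ‖inner ℂ b c‖ ^ 2 ≠ 1 / 6 := by
  intro h
  obtain ⟨m, n, hmn⟩ := sum_eis Finset.univ
    (fun j => (starRingEnd ℂ) ((Real.sqrt 6 : ℂ) * b j) * ((Real.sqrt 6 : ℂ) * c j))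
    (fun j _ => sixth_root _ (by rw [mul_pow, ← map_pow, hb j, hc j]; simp))
  rw [← six_inner] at hmn
  have h2 : Complex.normSq ((6 : ℂ) * inner ℂ b c) = 6 := by
    rw [Complex.normSq_mul, Complex.normSq_eq_norm_sq (inner ℂ b c), h]
    simp [Complex.normSq]
  rw [hmn, normSq_eis] at h2
  exact no_eis_six m n h2

end Vale.Agent.Lib.P355
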